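import Vale.Agent.P336.Defs
import Vale.Agent.P336.Final
import Vale.Agent.P336.LangPT

namespace Vale.Agent.Results.P336.A_lower

open Vale.Agent.P336

/-- A language in P whose membership functions and their complements need OR-AND-OR circuits of
size `2 ^ (c * sqrt (n * log n))` for all large `n`. -/
theorem result : ∃ (f : List Bool → Bool)
    (M : Turing.TM2ComputableInPolyTime (id : List Bool → List Bool) (fun b : Bool => [b]) f),
    (∀ k, Finite (M.tm.Γ k)) ∧ ∃ c : ℝ, 0 < c ∧ ∃ n₀ : ℕ, ∀ n : ℕ, n₀ ≤ n →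
      ∀ (b : Bool) (C : Circ n), (∀ x : Fin n → Bool, C.Accepts x ↔ f (List.ofFn x) = b) →
        (2 : ℝ) ^ (c * √((n : ℝ) * Real.log n)) ≤ (C.size : ℝ) := by
  obtain ⟨M, hM⟩ := lang_tm
  exact ⟨lang, M, hM, 1 / 65536, by norm_num, 2 ^ 65536, fun n hn b C hC => lower hn b C hC⟩

end Vale.Agent.Results.P336.A_lower
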